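import Mathlib

namespace Vale.Agent.P033

open Polynomial Finset

/-- evaluation of an integer polynomial -/
noncomputable def ev {R : Type*} [CommRing R] (w : R) : ℤ[X] →+* R :=
  eval₂RingHom (Int.castRingHom R) w

lemma map_ev {R S : Type*} [CommRing R] [CommRing S] (φ : R →+* S) (w : R) (f : ℤ[X]) :
    φ (ev w f) = ev (φ w) f := by
  unfold ev
  simp only [coe_eval₂RingHom]
  rw [hom_eval₂]
  congr 1
  exact RingHom.ext_int _ _

@[simp] lemma ev_X {R : Type*} [CommRing R] (w : R) : ev w X = w := by simp [ev]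
@[simp] lemma ev_C {R : Type*} [CommRing R] (w : R) (a : ℤ) : ev w (C a) = a := by simp [ev]

lemma ev_one_eq {R : Type*} [CommRing R] (f : ℤ[X]) : ev (1 : R) f = ((f.eval 1 : ℤ) : R) := by
  have := map_ev (Int.castRingHom R) 1 f
  simp only [map_one] at this
  rw [← this]
  simp [ev, eval₂_eq_eval_map]

lemma ev_mem {R : Type*} [CommRing R] (A : Subring R) {w : R} (hw : w ∈ A) (f : ℤ[X]) :
    ev w f ∈ A := by
  have := map_ev A.subtype ⟨w, hw⟩ f
  simp only [Subring.subtype_apply] at this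
  rw [← this]
  exact Subtype.property _

lemma sub_dvd_ev {R : Type*} [CommRing R] (a b : R) (f : ℤ[X]) : a - b ∣ ev a f - ev b f := by
  have := sub_dvd_eval_sub a b (f.map (Int.castRingHom R))
  simpa [ev, eval_map] using this

/-- the norm equation in every ring -/
def NormEq (n : ℕ) (f : ℤ[X]) : Prop :=
  ∀ (R : Type) [CommRing R] (w w' : R), w ^ n = 1 → w * w' = 1 → ev w f * ev w' f = n

lemma exists_poly (n : ℕ) [NeZero n] (h : ZMod n → ℤ) (hs : ∀ j, h j = 1 ∨ h j = -1)
    (ha : ∀ t : ZMod n, ∑ k, h k * h (k + t) = if t = 0 then (n : ℤ) else 0) :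
    ∃ g : ℤ[X], NormEq n (2 * g + ∑ i ∈ range n, X ^ i) := by
  classical
  let gc : ZMod n → ℤ := fun j => if h j = 1 then 0 else -1
  have hgc : ∀ j, h j = 2 * gc j + 1 := by
    intro j
    rcases hs j with h1 | h1 <;> simp [gc, h1]
  refine ⟨∑ j, C (gc j) * X ^ j.val, ?_⟩
  have hS : (∑ i ∈ range n, (X : ℤ[X]) ^ i) = ∑ j : ZMod n, X ^ j.val := by
    symm
    refine Finset.sum_bij (fun j _ => j.val) ?_ ?_ ?_ ?_
    · intro a _; exact mem_range.mpr (ZMod.val_lt a)
    · intro a _ b _ hab; exact ZMod.val_injective n hab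
    · intro b hb; exact ⟨(b : ZMod n), mem_univ _, ZMod.val_cast_of_lt (mem_range.mp hb)⟩
    · intro a _; rfl
  have hf : (2 * ∑ j, C (gc j) * X ^ j.val + ∑ i ∈ range n, (X : ℤ[X]) ^ i)
      = ∑ j, C (h j) * X ^ j.val := by
    rw [hS, Finset.mul_sum, ← Finset.sum_add_distrib]
    refine Finset.sum_congr rfl fun j _ => ?_
    rw [hgc j]
    simp only [map_add, map_mul, map_one, eq_intCast, Int.cast_ofNat]
    ring
  rw [hf]
  intro R _ w w' hw hww
  simp only [map_sum, map_mul, map_pow, ev_C, ev_X]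
  have key : ∀ k t : ZMod n, w ^ (k + t).val * w' ^ k.val = w ^ t.val := by
    intro k t
    rw [ZMod.val_add, ← pow_eq_pow_mod _ hw, pow_add, mul_comm (w ^ k.val), mul_assoc, ← mul_pow,
      hww, one_pow, mul_one]
  rw [Finset.sum_mul_sum, Finset.sum_comm]
  have : ∀ k : ZMod n, ∑ j : ZMod n, (h j : R) * w ^ j.val * ((h k : R) * w' ^ k.val)
      = ∑ t : ZMod n, ((h k * h (k + t) : ℤ) : R) * w ^ t.val := by
    intro k
    rw [← Equiv.sum_comp (Equiv.addLeft k)]
    refine Finset.sum_congr rfl fun t _ => ?_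
    simp only [Equiv.coe_addLeft, Int.cast_mul]
    rw [← key k t]; ring
  simp only [this]
  rw [Finset.sum_comm]
  simp only [← Finset.sum_mul, ← Int.cast_sum, ha]
  simp

lemma geom_root {K : Type*} [Field K] [DecidableEq K] (n : ℕ) (w : K) (hw : w ^ n = 1) :
    ∑ i ∈ range n, w ^ i = if w = 1 then (n : K) else 0 := by
  split_ifs with h1
  · simp [h1]
  · have := geom_sum_mul w n
    rw [hw, sub_self] at this
    exact (mul_eq_zero.mp this).resolve_right (sub_ne_zero.mpr h1)

end Vale.Agent.P033
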