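import Vale.Agent.P033.Basic

namespace Vale.Agent.P033

open Polynomial Finset IsLocalRing

section
variable {A : Type} [CommRing A] [IsDomain A] [ValuationRing A]

lemma exists_dvd_all {ι : Type*} (c : ι → A) (s : Finset ι) (hs : s.Nonempty) :
    ∃ i ∈ s, ∀ j ∈ s, c i ∣ c j := by
  induction hs using Finset.Nonempty.cons_induction with
  | singleton a => exact ⟨a, by simp, by simp⟩
  | cons a s ha hs ih =>
    obtain ⟨i, hi, hd⟩ := ih
    rcases ValuationRing.dvd_total (c a) (c i) with h | h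
    · refine ⟨a, by simp, ?_⟩
      intro j hj
      rcases Finset.mem_cons.mp hj with rfl | hj
      · exact dvd_rfl
      · exact h.trans (hd j hj)
    · refine ⟨i, by simp [hi], ?_⟩
      intro j hj
      rcases Finset.mem_cons.mp hj with rfl | hj
      · exact h
      · exact hd j hj

lemma exists_content (P : A[X]) (hP : P ≠ 0) :
    ∃ (a : A) (P0 : A[X]), a ≠ 0 ∧ P = C a * P0 ∧ P0.map (residue A) ≠ 0 := by
  obtain ⟨i, hi, hd⟩ := exists_dvd_all P.coeff P.support (Polynomial.support_nonempty.mpr hP)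
  have ha : P.coeff i ≠ 0 := mem_support_iff.mp hi
  have : C (P.coeff i) ∣ P := by
    rw [C_dvd_iff_dvd_coeff]
    intro j
    by_cases hj : j ∈ P.support
    · exact hd j hj
    · rw [notMem_support_iff.mp hj]; exact dvd_zero _
  obtain ⟨P0, h0⟩ := this
  refine ⟨P.coeff i, P0, ha, h0, ?_⟩
  have h1 : P0.coeff i = 1 := by
    have := congrArg (fun Q => Q.coeff i) h0
    simp only [coeff_C_mul] at this
    exact (mul_left_cancel₀ ha (by rw [← this, mul_one])).symm
  intro h2
  have := congrArg (fun Q => Q.coeff i) h2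
  simp [h1] at this

lemma local_core (t N : A) (ht : t ∈ maximalIdeal A) (hN : N ≠ 0) (P P' W : A[X])
    (h : P * P' = C N * (1 + C t * W)) :
    ∃ a u0 u1 : A, a ≠ 0 ∧ P.eval 0 = a * u0 ∧ P.eval 1 = a * u1 ∧ IsUnit u0 ∧
      u1 - u0 ∈ maximalIdeal A := by
  have htr : residue A t = 0 := (residue_eq_zero_iff t).mpr ht
  have hW : (1 + C t * W).map (residue A) = 1 := by simp [htr]
  have hW0 : (1 + C t * W) ≠ 0 := by
    intro h0; rw [h0] at hW; simp at hW
  have hPP : P * P' ≠ 0 := by rw [h]; exact mul_ne_zero (by simpa using hN) hW0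
  obtain ⟨a, P0, ha, rfl, hP0⟩ := exists_content P (left_ne_zero_of_mul hPP)
  obtain ⟨a', P0', ha', rfl, hP0'⟩ := exists_content P' (right_ne_zero_of_mul hPP)
  have hdeg : (P0.map (residue A)).natDegree = 0 := by
    rcases ValuationRing.dvd_total (a * a') N with ⟨c, hc⟩ | ⟨c, hc⟩
    · have h2 : P0 * P0' = C c * (1 + C t * W) := by
        apply mul_left_cancel₀ (a := C (a * a')) (by simp [ha, ha'])
        rw [hc] at h
        simp only [map_mul] at h ⊢
        linear_combination h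
      have h3 := congrArg (Polynomial.map (residue A)) h2
      rw [Polynomial.map_mul, Polynomial.map_mul, hW, mul_one, map_C] at h3
      have h4 := natDegree_mul hP0 hP0'
      rw [h3, natDegree_C] at h4
      omega
    · have h2 : C c * (P0 * P0') = (1 + C t * W) := by
        apply mul_left_cancel₀ (a := C N) (by simp [hN])
        rw [← h]
        have : C a * C a' = C N * C c := by rw [← map_mul, hc, map_mul]
        linear_combination (-(P0 * P0')) * this
      have h3 := congrArg (Polynomial.map (residue A)) h2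
      rw [Polynomial.map_mul, Polynomial.map_mul, hW] at h3
      apply natDegree_eq_zero_of_isUnit
      exact IsUnit.of_mul_eq_one ((C c).map (residue A) * P0'.map (residue A))
        (by rw [← h3]; ring)
  obtain ⟨b, hb⟩ := natDegree_eq_zero.mp hdeg
  have hb0 : b ≠ 0 := by rintro rfl; rw [← hb] at hP0; simp at hP0
  have e0 : residue A (P0.eval 0) = b := by
    have := congrArg (fun Q => Q.eval (residue A 0)) hb
    simp only [eval_C] at this
    rw [this, eval_map, eval₂_at_apply]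
  have e1 : residue A (P0.eval 1) = b := by
    have := congrArg (fun Q => Q.eval (residue A 1)) hb
    simp only [eval_C] at this
    rw [this, eval_map, eval₂_at_apply]
  refine ⟨a, P0.eval 0, P0.eval 1, ha, by simp, by simp, ?_, ?_⟩
  · rw [← residue_ne_zero_iff_isUnit, e0]; exact hb0
  · rw [← residue_eq_zero_iff, map_sub, e0, e1, sub_self]

end

lemma pow_sub_one_dvd {B : Type*} [CommRing B] (p : ℕ) (hp : p.Prime) (t y : B)
    (hy : (p : B) * t ∣ (1 + y) ^ p - 1) (k : ℕ) :
    (p : B) ^ (k + 1) * t ∣ (1 + y) ^ (p ^ (k + 1)) - 1 := by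
  induction k with
  | zero => simpa using hy
  | succ k ih =>
    obtain ⟨z, hz⟩ := ih
    have e : (1 + y) ^ (p ^ (k + 1)) = 1 + (p : B) ^ (k + 1) * t * z := by rw [← hz]; ring
    rw [pow_succ p (k + 1), pow_mul, e]
    obtain ⟨r, hr⟩ := exists_add_pow_prime_eq hp (1 : B) ((p : B) ^ (k + 1) * t * z)
    rw [hr]
    obtain ⟨q, hq⟩ : ∃ q, p = q + 2 := ⟨p - 2, by have := hp.two_le; omega⟩
    refine ⟨(p : B) ^ k * t * z * z * ((p : B) ^ (k + 1) * t * z) ^ q + z * r, ?_⟩
    have : ((p : B) ^ (k + 1) * t * z) ^ p = ((p : B) ^ (k + 1) * t * z) ^ q *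
        ((p : B) ^ (k + 1) * t * z) ^ 2 := by
      rw [← pow_add, ← hq]
    rw [this]; ring

lemma isUnit_natCast {A : Type*} [CommRing A] [IsLocalRing A] (p k : ℕ)
    (hp : (p : A) ∈ maximalIdeal A) (hk : Nat.Coprime p k) : IsUnit (k : A) := by
  by_contra hu
  have hk' : (k : A) ∈ maximalIdeal A := hu
  have h1 : IsCoprime (p : A) (k : A) := Nat.Coprime.cast hk
  obtain ⟨a, b, hab⟩ := h1
  have : (1 : A) ∈ maximalIdeal A := by
    rw [← hab]
    exact add_mem (Ideal.mul_mem_left _ _ hp) (Ideal.mul_mem_left _ _ hk')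
  exact (maximalIdeal.isMaximal A).ne_top ((Ideal.eq_top_iff_one _).mpr this)

lemma local_ring_lemma {A : Type} [CommRing A] [IsDomain A] [ValuationRing A]
    (n p : ℕ) (hn : (n : A) ≠ 0) (hp : p.Prime) (hpn : p ∣ n) (hpm : (p : A) ∈ maximalIdeal A)
    (f : ℤ[X]) (hf : NormEq n f) (w x : A) (hw : w ^ n = 1) (hx : x ^ p = 1) (hx1 : x ≠ 1) :
    ∃ a u0 u1 : A, a ≠ 0 ∧ ev w f = a * u0 ∧ ev (w * x) f = a * u1 ∧ IsUnit u0 ∧
      u1 - u0 ∈ maximalIdeal A := by
  have hn0 : n ≠ 0 := by rintro rfl; simp at hn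
  set t := x - 1 with ht
  obtain ⟨r, hr⟩ := exists_add_pow_prime_eq hp (1 : A) t
  have hxt : 1 + t = x := by rw [ht]; ring
  rw [hxt, hx] at hr
  have htp : t ^ p = -(p * t * r) := by rw [one_pow] at hr; linear_combination -hr
  have htm : t ∈ maximalIdeal A := by
    apply (maximalIdeal.isMaximal A).isPrime.mem_of_pow_mem p
    rw [htp, mul_assoc]
    exact neg_mem (Ideal.mul_mem_right _ _ hpm)
  have h1 : ((p : ℕ) : A[X]) * C t ∣ (1 + C t * X) ^ p - 1 := by
    obtain ⟨r', hr'⟩ := exists_add_pow_prime_eq hp (1 : A[X]) (C t * X)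
    rw [hr', mul_pow, ← map_pow, htp]
    refine ⟨-C r * X ^ p + X * r', ?_⟩
    simp only [map_neg, map_mul, map_natCast]
    ring
  obtain ⟨k, n', hn', hpn'⟩ : ∃ k n', n = p ^ (k + 1) * n' ∧ ¬ p ∣ n' := by
    obtain ⟨k, n', h1, h2⟩ := Nat.exists_eq_pow_mul_and_not_dvd hn0 p hp.ne_one
    cases k with
    | zero => rw [h2] at hpn; simp at hpn; exact absurd hpn h1
    | succ k => exact ⟨k, n', h2, h1⟩
  have hu : IsUnit (n' : A) := isUnit_natCast p n' hpm ((Nat.Prime.coprime_iff_not_dvd hp).mpr hpn')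
  have h2 : C (n : A) * C t ∣ (1 + C t * X) ^ n - 1 := by
    have h3 := pow_sub_one_dvd p hp (C t) (C t * X) h1 k
    have h4 : (1 + C t * X) ^ (p ^ (k + 1)) - 1 ∣ (1 + C t * X) ^ n - 1 := by
      have h7 := sub_dvd_pow_sub_pow ((1 + C t * X) ^ (p ^ (k + 1))) 1 n'
      rwa [one_pow, ← pow_mul, ← hn'] at h7
    refine Dvd.dvd.trans ?_ (h3.trans h4)
    obtain ⟨v, hv⟩ := hu.exists_right_inv
    refine ⟨C v, ?_⟩
    have : (n : A) * v = (p : A) ^ (k + 1) := by
      rw [hn']; push_cast; rw [mul_assoc, hv, mul_one]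
    have h5 := congrArg C this
    simp only [map_mul, map_pow, map_natCast] at h5 ⊢
    linear_combination (-C t) * h5
  let I : Ideal A[X] := Ideal.span {C (n : A) * C t}
  let Y : A[X] := C w * (1 + C t * X)
  have hY : (Ideal.Quotient.mk I Y) ^ n = 1 := by
    rw [← map_pow, ← map_one (Ideal.Quotient.mk I), Ideal.Quotient.eq, Ideal.mem_span_singleton]
    have : Y ^ n - 1 = (1 + C t * X) ^ n - 1 := by
      simp only [Y, mul_pow, ← map_pow, hw, map_one, one_mul]
    rw [this]; exact h2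
  have h6 := hf (A[X] ⧸ I) (Ideal.Quotient.mk I Y) (Ideal.Quotient.mk I (Y ^ (n - 1))) hY
    (by rw [map_pow, ← pow_succ', Nat.sub_add_cancel (Nat.pos_of_ne_zero hn0), hY])
  rw [← map_ev, ← map_ev, ← map_mul, ← map_natCast (Ideal.Quotient.mk I), Ideal.Quotient.eq,
    Ideal.mem_span_singleton] at h6
  obtain ⟨W, hW⟩ := h6
  obtain ⟨a, u0, u1, ha, e0, e1, hu0, hu1⟩ := local_core t (n : A) htm hn (ev Y f)
    (ev (Y ^ (n - 1)) f) W (by simp only [map_natCast] at hW ⊢; linear_combination hW)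
  refine ⟨a, u0, u1, ha, ?_, ?_, hu0, hu1⟩
  · rw [← e0, ← coe_evalRingHom, map_ev]; simp [Y]
  · rw [← e1, ← coe_evalRingHom, map_ev]; simp [Y, hxt]

lemma root_mem {K : Type*} [Field K] (V : ValuationSubring K) {w : K} {n : ℕ} (hn : n ≠ 0)
    (hw : w ^ n = 1) : w ∈ V := by
  rw [← V.valuation_le_one_iff]
  have := congrArg V.valuation hw
  rw [map_pow, map_one] at this
  exact ((pow_eq_one_iff_of_nonneg zero_le hn).mp this).le

lemma local_lemma {K : Type} [Field K] (V : ValuationSubring K)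
    (n p : ℕ) (hn : (n : K) ≠ 0) (hp : p.Prime) (hpn : p ∣ n) (hpm : V.valuation (p : K) < 1)
    (f : ℤ[X]) (hf : NormEq n f) (w x : K) (hw : w ^ n = 1) (hx : x ^ p = 1) :
    V.valuation (ev (w * x) f / ev w f - 1) < 1 := by
  have hn0 : n ≠ 0 := by rintro rfl; simp at hn
  have hw0 : w ≠ 0 := by rintro rfl; simp [hn0] at hw
  have hne : ev w f ≠ 0 := by
    intro h0
    have := hf K w w⁻¹ hw (mul_inv_cancel₀ hw0)
    rw [h0, zero_mul] at this
    exact hn this.symm
  by_cases hx1 : x = 1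
  · simp [hx1, hne]
  have hwV := root_mem V hn0 hw
  have hxV := root_mem V hp.ne_zero hx
  obtain ⟨a, u0, u1, ha, e0, e1, hu0, hu1⟩ := local_ring_lemma (A := V) n p
    (by intro h; apply hn; simpa using congrArg V.subtype h) hp hpn
    (by rw [V.valuation_lt_one_iff]; simpa using hpm) f hf ⟨w, hwV⟩ ⟨x, hxV⟩
    (Subtype.ext (by simpa using hw)) (Subtype.ext (by simpa using hx))
    (fun h => hx1 (congrArg Subtype.val h))
  have e0' := congrArg V.subtype e0
  have e1' := congrArg V.subtype e1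
  rw [map_ev] at e0' e1'
  simp only [map_mul, ValuationSubring.subtype_apply] at e0' e1'
  have hu0' : V.valuation (u0 : K) = 1 := (V.valuation_eq_one_iff u0).mp hu0
  have hu0'' : (u0 : K) ≠ 0 := by intro h; rw [h] at hu0'; simp at hu0'
  have ha' : (a : K) ≠ 0 := by simpa using ha
  have : ev (w * x) f / ev w f - 1 = ((u1 - u0 : V) : K) / u0 := by
    rw [e0', e1']; push_cast; field_simp
  rw [this, map_div₀, hu0', div_one]
  exact (V.valuation_lt_one_iff _).mp hu1

end Vale.Agent.P033
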