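import Vale.Agent.P033.Basic

namespace Vale.Agent.P033

open Polynomial Finset

open Classical in
/-- value of the sign polynomial at a root of unity -/
noncomputable def DD (M : ℕ) (g : ℤ[X]) (w : ℂ) : ℂ := 2 * ev w g + if w = 1 then (M : ℂ) else 0

/-- the invariant of the descent -/
def TwoP (M : ℕ) (c : ℤ) : Prop :=
  ∃ g : ℤ[X], ∀ w : ℂ, w ^ M = 1 → DD M g w * DD M g w⁻¹ = c

lemma ev_geom (n : ℕ) {R : Type*} [CommRing R] (w : R) :
    ev w (∑ i ∈ range n, X ^ i) = ∑ i ∈ range n, w ^ i := by simp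

lemma twoP_of_normEq (n : ℕ) (hn : n ≠ 0) (g : ℤ[X])
    (h : NormEq n (2 * g + ∑ i ∈ range n, X ^ i)) : TwoP n n := by
  classical
  refine ⟨g, fun w hw => ?_⟩
  have hw0 : w ≠ 0 := by rintro rfl; simp [hn] at hw
  have := h ℂ w w⁻¹ hw (mul_inv_cancel₀ hw0)
  simp only [map_add, map_mul, ev_geom, map_ofNat] at this
  rw [geom_root n w hw, geom_root n w⁻¹ (by rw [inv_pow, hw, inv_one])] at this
  unfold DD
  push_cast
  convert this

lemma twoP_fold (M m : ℕ) (hm : Odd m) (c : ℤ) (h : TwoP (M * m) c) : TwoP M c := by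
  classical
  obtain ⟨g, hg⟩ := h
  obtain ⟨k, rfl⟩ := hm
  refine ⟨g + C (k : ℤ) * ∑ i ∈ range M, X ^ i, fun w hw => ?_⟩
  have key : ∀ w : ℂ, w ^ M = 1 →
      DD M (g + C (k : ℤ) * ∑ i ∈ range M, X ^ i) w = DD (M * (2 * k + 1)) g w := by
    intro w hw
    unfold DD
    simp only [map_add, map_mul, ev_geom, ev_C]
    rw [geom_root M w hw]
    split_ifs <;> push_cast <;> ring
  rw [key w hw, key w⁻¹ (by rw [inv_pow, hw, inv_one])]
  exact hg w (by rw [pow_mul, hw, one_pow])

lemma twoP_sq (M : ℕ) (c : ℤ) (h : TwoP M c) : ∃ y : ℤ, y * y = c := by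
  obtain ⟨g, hg⟩ := h
  have := hg 1 (one_pow _)
  simp only [DD, inv_one, if_true, ev_one_eq] at this
  exact ⟨2 * g.eval 1 + M, by exact_mod_cast this⟩

lemma exists_s (b : ℕ) : ∃ s : ℤ[X], (X - 1) ^ (2 ^ b) = X ^ (2 ^ b) + 1 + 2 * s := by
  induction b with
  | zero => exact ⟨-1, by ring⟩
  | succ b ih =>
    obtain ⟨s, hs⟩ := ih
    refine ⟨X ^ (2 ^ b) + 2 * s * (X ^ (2 ^ b) + 1) + 2 * s ^ 2, ?_⟩
    rw [pow_succ 2 b, pow_mul, pow_mul, hs]; ring

lemma ev_comp {R : Type*} [CommRing R] (w : R) (u q : ℤ[X]) :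
    ev w (u.comp q) = ev (ev w q) u := by
  simp [ev, eval₂_comp]

lemma halve (b : ℕ) (z : ℂ) (hz : IsPrimitiveRoot z (2 ^ (b + 1))) (g : ℤ[X]) (c : ℤ)
    (h : ev z g * ev z⁻¹ g = 4 * c) : ∃ g' r : ℤ[X], g = 2 * g' + (X ^ (2 ^ b) + 1) * r := by
  set d := 2 ^ b with hd
  have hd0 : 0 < d := by positivity
  have hcyc : cyclotomic (2 ^ (b + 1)) ℤ = X ^ d + 1 := by
    rw [cyclotomic_prime_pow_eq_geom_sum Nat.prime_two]
    simp [Finset.sum_range_succ, hd, add_comm]
  have hdiv : ∀ p : ℤ[X], ev z p = 0 → X ^ d + 1 ∣ p := by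
    intro p hp
    rw [← hcyc, cyclotomic_eq_minpoly hz (by positivity)]
    apply minpoly.isIntegrallyClosed_dvd (hz.isIntegral (by positivity))
    rw [aeval_def, algebraMap_int_eq]
    exact hp
  have hz2 : z ^ (2 * d) = 1 := by rw [← hz.pow_eq_one, hd, pow_succ 2 b, mul_comm]
  have hz0 : z ≠ 0 := hz.ne_zero (by positivity)
  have hz1 : z - 1 ≠ 0 := sub_ne_zero.mpr (hz.ne_one (Nat.one_lt_two_pow (by omega)))
  have hzd : z ^ d + 1 = 0 := by
    have h1 : (z ^ d - 1) * (z ^ d + 1) = 0 := by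
      have : z ^ (2 * d) = (z ^ d) ^ 2 := by rw [← pow_mul, mul_comm]
      linear_combination hz2 - this
    refine (mul_eq_zero.mp h1).resolve_left (sub_ne_zero.mpr ?_)
    exact hz.pow_ne_one_of_pos_of_lt hd0.ne' (by rw [hd, pow_succ]; omega)
  have hzi : z⁻¹ = z ^ (2 * d - 1) := by
    symm
    apply eq_inv_of_mul_eq_one_left
    rw [← pow_succ, Nat.sub_add_cancel (by omega), hz2]
  have hzd' : z⁻¹ ^ d + 1 = 0 := by
    have : z ^ d = -1 := by linear_combination hzd
    rw [inv_pow, this]; norm_num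
  obtain ⟨s, hs⟩ := exists_s b
  rw [← hd] at hs
  have hs1 : s.eval 1 = -1 := by
    have := congrArg (eval 1) hs
    simp only [eval_pow, eval_sub, eval_X, eval_one, sub_self, zero_pow hd0.ne', eval_add,
      one_pow, eval_mul, eval_ofNat] at this
    omega
  have hsz : (z - 1) ^ d = 2 * ev z s := by
    have := congrArg (ev z) hs
    simp only [map_pow, map_sub, ev_X, map_one, map_add, map_mul, map_ofNat] at this
    rw [this, hzd, zero_add]
  have claim : ∀ k, k ≤ d → ∃ u r : ℤ[X], g = (X - 1) ^ k * u + (X ^ d + 1) * r := by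
    intro k
    induction k with
    | zero => intro _; exact ⟨g, 0, by ring⟩
    | succ k ih =>
      intro hk
      obtain ⟨u, r, hu⟩ := ih (by omega)
      rcases Int.even_or_odd (u.eval 1) with ⟨j, hj⟩ | hodd
      · obtain ⟨u1, hu1⟩ := X_sub_C_dvd_sub_C_eval (p := u) (a := 1)
        have hg := mul_geom_sum (X : ℤ[X]) d
        refine ⟨u1 - C j * ∑ i ∈ range d, X ^ i, r + (X - 1) ^ k * C j, ?_⟩
        rw [hj] at hu1
        simp only [map_add, map_one] at hu1
        rw [hu, pow_succ]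
        linear_combination (X - 1) ^ k * hu1 + (X - 1) ^ k * C j * hg
      · exfalso
        obtain ⟨l, hl⟩ : ∃ l, d = k + (l + 1) := ⟨d - k - 1, by omega⟩
        have e1 : ev z g = (z - 1) ^ k * ev z u := by
          rw [hu]; simp [hzd]
        have e2 : ev z⁻¹ g = (z - 1) ^ k * (-z⁻¹) ^ k * ev z⁻¹ u := by
          rw [hu, ← mul_pow]
          have : (z - 1) * (-z⁻¹) = z⁻¹ - 1 := by field_simp; ring
          rw [this]
          simp only [map_add, map_mul, map_pow, map_sub, ev_X, map_one, hzd', zero_mul, add_zero]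
        have e3 : ev z (s ^ 2 * (-X ^ (2 * d - 1)) ^ k * u * u.comp (X ^ (2 * d - 1))
            - (X - 1) ^ (2 * (l + 1)) * C c) = 0 := by
          simp only [map_sub, map_mul, map_pow, map_neg, ev_X, ev_comp, ev_C, map_one, ← hzi]
          apply mul_left_cancel₀ (pow_ne_zero (2 * k) hz1)
          have e4 : (z - 1) ^ (2 * k) * (z - 1) ^ (2 * (l + 1)) = 4 * (ev z s) ^ 2 := by
            rw [← pow_add, ← mul_add, ← hl, mul_comm 2 d, pow_mul, hsz]; ring
          rw [e1, e2] at h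
          have e5 : (z - 1) ^ (2 * k) = (z - 1) ^ k * (z - 1) ^ k := by ring
          rw [mul_zero, mul_sub, ← mul_assoc _ _ (c : ℂ), e4, e5]
          linear_combination (ev z s) ^ 2 * h
        obtain ⟨q, hq⟩ := hdiv _ e3
        have e6 := congrArg (eval 1) hq
        simp only [eval_sub, eval_mul, eval_pow, eval_neg, eval_X, one_pow, eval_comp, hs1,
          eval_one, sub_self, eval_add, zero_pow (show 2 * (l + 1) ≠ 0 by omega), zero_mul,
          sub_zero] at e6
        have : Odd ((-1) ^ 2 * (-1) ^ k * eval 1 u * eval 1 u) := by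
          refine Odd.mul (Odd.mul (Odd.mul ?_ ?_) hodd) hodd
          · decide
          · exact Odd.pow (by decide)
        rw [e6] at this
        exact (Int.not_odd_iff_even.mpr ⟨eval 1 q, by ring⟩) this
  obtain ⟨u, r, hu⟩ := claim d le_rfl
  exact ⟨s * u, u + r, by rw [hu, hs]; ring⟩

lemma twoP_step (b : ℕ) (c : ℤ) (h : TwoP (2 ^ (b + 1)) (16 * c)) : TwoP (2 ^ b) (4 * c) := by
  obtain ⟨g, hg⟩ := h
  have hz := Complex.isPrimitiveRoot_exp (2 ^ (b + 1)) (by positivity)
  set z := Complex.exp (2 * Real.pi * Complex.I / ((2 ^ (b + 1) : ℕ) : ℂ))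
  have hz1 : z ≠ 1 := hz.ne_one (Nat.one_lt_two_pow (by omega))
  have h1 := hg z hz.pow_eq_one
  simp only [DD, hz1, inv_eq_one, if_false, add_zero] at h1
  obtain ⟨g', r, hr⟩ := halve b z hz g c (by push_cast at h1; linear_combination h1 / 4)
  refine ⟨g' + r, fun w hw => ?_⟩
  have key : ∀ w : ℂ, w ^ (2 ^ b) = 1 → DD (2 ^ (b + 1)) g w = 2 * DD (2 ^ b) (g' + r) w := by
    intro w hw
    unfold DD
    rw [hr]
    simp only [map_add, map_mul, map_pow, ev_X, hw, map_one, map_ofNat]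
    split_ifs <;> push_cast <;> ring
  have h2 := hg w (by rw [pow_succ, pow_mul, hw, one_pow])
  rw [key w hw, key w⁻¹ (by rw [inv_pow, hw, inv_one])] at h2
  push_cast at h2 ⊢
  linear_combination h2 / 4

lemma twoP_base (L : ℕ) (hL : L ≠ 0) (m : ℤ) (hm : Odd m) (h : TwoP (8 * L) (4 * m)) : False := by
  classical
  obtain ⟨g, hg⟩ := h
  set M := 8 * L with hM
  have hM0 : M ≠ 0 := by omega
  have hz := Complex.isPrimitiveRoot_exp M hM0
  set z := Complex.exp (2 * Real.pi * Complex.I / (M : ℂ))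
  have hz0 : z ≠ 0 := hz.ne_zero hM0
  let β : ℤ[X] → ℤ[X] → ℂ := fun g h => ∑ k ∈ range M, ev (z ^ k) g * ev (z ^ k)⁻¹ h
  have hβl : ∀ g1 g2 h, β (g1 + g2) h = β g1 h + β g2 h := by
    intro g1 g2 h; simp only [β, map_add, add_mul, Finset.sum_add_distrib]
  have hβr : ∀ g1 g2 h, β h (g1 + g2) = β h g1 + β h g2 := by
    intro g1 g2 h; simp only [β, map_add, mul_add, Finset.sum_add_distrib]
  have hmon : ∀ (i j : ℕ) (a b : ℤ), β (monomial i a) (monomial j b) =
      a * b * if z ^ i = z ^ j then (M : ℂ) else 0 := by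
    intro i j a b
    have h1 : (z ^ i * (z ^ j)⁻¹) ^ M = 1 := by
      rw [mul_pow, inv_pow, pow_right_comm z i, pow_right_comm z j, hz.pow_eq_one]; simp
    have h2 := geom_root M _ h1
    simp only [mul_inv_eq_one₀ (pow_ne_zero j hz0)] at h2
    rw [← h2, Finset.mul_sum]
    refine Finset.sum_congr rfl fun k _ => ?_
    simp only [← C_mul_X_pow_eq_monomial, map_mul, map_pow, ev_C, ev_X, mul_pow, inv_pow,
      ← pow_mul, mul_comm k]
    ring
  have h1 : ∀ g h : ℤ[X], ∃ y : ℤ, β g h = M * y ∧ β h g = M * y := by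
    intro g h
    induction g using Polynomial.induction_on' with
    | add p q hp hq =>
      obtain ⟨y1, a1, b1⟩ := hp
      obtain ⟨y2, a2, b2⟩ := hq
      exact ⟨y1 + y2, by rw [hβl, a1, a2]; push_cast; ring, by rw [hβr, b1, b2]; push_cast; ring⟩
    | monomial i a =>
      induction h using Polynomial.induction_on' with
      | add p q hp hq =>
        obtain ⟨y1, a1, b1⟩ := hp
        obtain ⟨y2, a2, b2⟩ := hq
        exact ⟨y1 + y2, by rw [hβr, a1, a2]; push_cast; ring, by rw [hβl, b1, b2]; push_cast; ring⟩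
      | monomial j b =>
        rw [hmon, hmon]
        by_cases hij : z ^ i = z ^ j
        · exact ⟨a * b, by simp [hij]; ring, by simp [hij]; ring⟩
        · exact ⟨0, by simp [hij], by simp [Ne.symm hij]⟩
  have h2 : ∀ g : ℤ[X], ∃ y : ℤ, β g g = M * ((g.eval 1 + 2 * y : ℤ) : ℂ) := by
    intro g
    induction g using Polynomial.induction_on' with
    | add p q hp hq =>
      obtain ⟨y1, a1⟩ := hp
      obtain ⟨y2, a2⟩ := hq
      obtain ⟨y3, a3, b3⟩ := h1 p q
      refine ⟨y1 + y2 + y3, ?_⟩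
      rw [hβl, hβr, hβr, a1, a2, a3, b3, eval_add]; push_cast; ring
    | monomial i a =>
      obtain ⟨y, hy⟩ := Int.even_mul_pred_self a
      refine ⟨y, ?_⟩
      rw [hmon]
      have : a * a = a + 2 * y := by linear_combination hy
      simp only [if_true, eval_monomial, one_pow, mul_one, ← this]
      push_cast; ring
  obtain ⟨y, hy⟩ := h2 g
  have h3 : β g g = ((g.eval 1 : ℤ) : ℂ) ^ 2 + (M - 1) * m := by
    obtain ⟨M', hM'⟩ : ∃ M', M = M' + 1 := ⟨M - 1, by omega⟩
    have : ∀ k ∈ range M', ev (z ^ (k + 1)) g * ev (z ^ (k + 1))⁻¹ g = m := by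
      intro k hk
      have hk1 : z ^ (k + 1) ≠ 1 :=
        hz.pow_ne_one_of_pos_of_lt (by omega) (by have := mem_range.mp hk; omega)
      have h4 := hg (z ^ (k + 1)) (by rw [← pow_mul, mul_comm, pow_mul, hz.pow_eq_one, one_pow])
      simp only [DD, hk1, inv_eq_one, if_false, add_zero] at h4
      push_cast at h4
      linear_combination h4 / 4
    simp only [β]
    rw [hM', Finset.sum_range_succ', Finset.sum_congr rfl this]
    simp [ev_one_eq]; ring
  have h4 := hg 1 (one_pow _)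
  simp only [DD, inv_one, if_true, ev_one_eq] at h4
  rw [h3] at hy
  have h5 : (2 * g.eval 1 + M) * (2 * g.eval 1 + M) = 4 * m := by exact_mod_cast h4
  have h6 : (g.eval 1) ^ 2 + (M - 1) * m = M * (g.eval 1 + 2 * y) := by exact_mod_cast hy
  have h7 : (M : ℤ) = 8 * L := by rw [hM]; push_cast; ring
  rw [h7] at h5 h6
  have h8 : (8 * L : ℤ) * m = (8 * L) * (2 * (g.eval 1 + L + y)) := by
    nlinarith
  have h9 := mul_left_cancel₀ (by positivity) h8
  exact (Int.not_even_iff_odd.mpr hm) ⟨g.eval 1 + L + y, by rw [h9]; ring⟩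

lemma twoP_descent (m : ℤ) (hm : Odd m) : ∀ e a : ℕ, 1 ≤ e → (e = 1 ∨ e + 3 ≤ 2 * a) →
    TwoP (2 ^ a) (2 ^ e * m) → False := by
  intro e
  induction e using Nat.strong_induction_on with
  | _ e ih =>
    intro a he hea h
    by_cases h4 : 4 ≤ e
    · obtain ⟨e', rfl⟩ : ∃ e', e = e' + 4 := ⟨e - 4, by omega⟩
      obtain ⟨b, rfl⟩ : ∃ b, a = b + 1 := ⟨a - 1, by omega⟩
      refine ih (e' + 2) (by omega) b (by omega) (by omega) ?_
      have := twoP_step b (2 ^ e' * m) (by convert h using 1; ring)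
      convert this using 1; ring
    · obtain ⟨k, hk⟩ := hm
      have he' : e = 1 ∨ e = 2 ∨ e = 3 := by omega
      rcases he' with rfl | rfl | rfl
      · obtain ⟨y, hy⟩ := twoP_sq _ _ h
        rcases Int.even_or_odd' y with ⟨j, rfl | rfl⟩
        · have : 2 * (j * j) = 2 * k + 1 := by rw [hk] at hy; linarith
          omega
        · have : 2 * (2 * (j * j) + 2 * j) + 1 = 2 * (2 * k + 1) := by rw [hk] at hy; linarith
          omega
      · obtain ⟨b, rfl⟩ : ∃ b, a = b + 3 := ⟨a - 3, by omega⟩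
        refine twoP_base (2 ^ b) (by positivity) m ⟨k, hk⟩ ?_
        convert h using 1 <;> ring
      · obtain ⟨y, hy⟩ := twoP_sq _ _ h
        rcases Int.even_or_odd' y with ⟨j, rfl | rfl⟩
        · rcases Int.even_or_odd' j with ⟨i, rfl | rfl⟩
          · have : 2 * (i * i) = 2 * k + 1 := by rw [hk] at hy; linarith
            omega
          · have : 2 * (2 * (i * i) + 2 * i) + 1 = 2 * (2 * k + 1) := by rw [hk] at hy; linarith
            omega
        · have : 2 * (2 * (j * j) + 2 * j) + 1 = 2 * (4 * (2 * k + 1)) := by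
            rw [hk] at hy; linarith
          omega

lemma two_part (n : ℕ) (hn : n ≠ 0) (g : ℤ[X])
    (h : NormEq n (2 * g + ∑ i ∈ range n, X ^ i)) : Odd n ∨ ∃ m, Odd m ∧ n = 4 * m := by
  obtain ⟨N, m, hm, rfl⟩ := Nat.exists_eq_two_pow_mul_odd hn
  have h1 := twoP_fold _ _ hm _ (twoP_of_normEq _ hn g h)
  have hm' : Odd (m : ℤ) := by exact_mod_cast hm
  by_cases h0 : N = 0
  · left; simpa [h0] using hm
  by_cases h2 : N = 2
  · right; exact ⟨m, hm, by rw [h2]; norm_num⟩
  exfalso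
  refine twoP_descent m hm' N N (by omega) (by omega) ?_
  convert h1 using 1
  push_cast; ring

end Vale.Agent.P033
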