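import Vale.Agent.P033.Val
import Vale.Agent.P033.Two

namespace Vale.Agent.P033

open Polynomial Finset

theorem main_field (K : Type) [Field K] [NumberField K] (m : ℕ) (hm : Odd m) (hm1 : 1 < m)
    (z : K) (hz : IsPrimitiveRoot z (4 * m)) (g : ℤ[X])
    (hf : NormEq (4 * m) (2 * g + ∑ i ∈ range (4 * m), X ^ i)) : False := by
  classical
  set n := 4 * m with hn
  set f : ℤ[X] := 2 * g + ∑ i ∈ range n, X ^ i with hfd
  have hn0 : n ≠ 0 := by omega
  have hm0 : m ≠ 0 := by omega
  have hmK : (m : K) ≠ 0 := by exact_mod_cast hm0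
  have hnK : (n : K) ≠ 0 := by exact_mod_cast hn0
  let D : K → K := fun w => ev w f / 2
  have hD : ∀ w, w ^ n = 1 → D w = ev w g + if w = 1 then 2 * (m : K) else 0 := by
    intro w hw
    simp only [D, hfd, map_add, map_mul, ev_geom, map_ofNat]
    rw [geom_root n w hw]
    split_ifs
    · rw [hn]; push_cast; ring
    · ring
  have hne : ∀ w : K, w ^ n = 1 → w ≠ 0 := by rintro w hw rfl; simp [hn0] at hw
  have hinvn : ∀ w : K, w ^ n = 1 → w⁻¹ ^ n = 1 := fun w hw => by rw [inv_pow, hw, inv_one]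
  have hDD : ∀ w, w ^ n = 1 → D w * D w⁻¹ = m := by
    intro w hw
    have := hf K w w⁻¹ hw (mul_inv_cancel₀ (hne w hw))
    simp only [D]
    rw [hn] at this; push_cast at this
    linear_combination this / 4
  have hD0 : ∀ w, w ^ n = 1 → D w ≠ 0 := fun w hw h0 => by
    have := hDD w hw
    rw [h0, zero_mul] at this; exact hmK this.symm
  have hDV : ∀ (V : ValuationSubring K) w, w ^ n = 1 → D w ∈ V := by
    intro V w hw
    rw [hD w hw]
    refine add_mem (ev_mem V.toSubring (root_mem V hn0 hw) g) ?_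
    split_ifs
    · exact_mod_cast natCast_mem V (2 * m)
    · exact zero_mem _
  have hDu : ∀ (V : ValuationSubring K), V.valuation (m : K) = 1 → ∀ w, w ^ n = 1 →
      V.valuation (D w) = 1 := fun V hV w hw =>
    val_eq_one_of_mul V (hDV V w hw) (hDV V _ (hinvn w hw)) (by rw [hDD w hw, hV])
  let P := m.primeFactors
  have hPp : ∀ p ∈ P, p.Prime := fun p hp => Nat.prime_of_mem_primeFactors hp
  have hPn : ∀ p ∈ P, p ∣ n := fun p hp => (Nat.dvd_of_mem_primeFactors hp).mul_left 4
  have hP2 : ∀ p ∈ P, Nat.Coprime p 2 := fun p hp =>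
    Nat.Coprime.coprime_dvd_left (Nat.dvd_of_mem_primeFactors hp) hm.coprime_two_right
  let x : ℕ → K := fun p => z ^ (n / p)
  have hx : ∀ p ∈ P, IsPrimitiveRoot (x p) p := fun p hp =>
    hz.pow (Nat.pos_of_ne_zero hn0) (Nat.div_mul_cancel (hPn p hp)).symm
  let xs : Finset ℕ → K := fun S => ∏ p ∈ S, x p
  have hxs : ∀ S, (xs S) ^ n = 1 := by
    intro S
    simp only [xs, x, ← Finset.prod_pow]
    exact Finset.prod_eq_one fun p _ => by rw [pow_right_comm, hz.pow_eq_one, one_pow]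
  have hwxs : ∀ w S, w ^ n = 1 → (w * xs S) ^ n = 1 := fun w S hw => by
    rw [mul_pow, hw, hxs, one_mul]
  have h4n : ∀ e : K, e ^ 4 = 1 → e ^ n = 1 := fun e he => by rw [hn, pow_mul, he, one_pow]
  have hne1 : ∀ e : K, e ^ 4 = 1 → ∀ S ⊆ P, S ≠ ∅ → e * xs S ≠ 1 := by
    intro e he S hS hS0 h1
    obtain ⟨p, hp⟩ := Finset.nonempty_iff_ne_empty.mpr hS0
    have h2 := congrArg (· ^ (4 * ∏ q ∈ S.erase p, q)) h1
    simp only [one_pow, mul_pow, xs] at h2
    rw [pow_mul e, he, one_pow, one_mul, ← Finset.mul_prod_erase S x hp, mul_pow,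
      ← Finset.prod_pow (S.erase p)] at h2
    have h3 : ∏ q ∈ S.erase p, x q ^ (4 * ∏ q ∈ S.erase p, q) = 1 := by
      refine Finset.prod_eq_one fun q hq => ?_
      exact ((hx q (hS (mem_of_mem_erase hq))).pow_eq_one_iff_dvd _).mpr
        ((Finset.dvd_prod_of_mem _ hq).mul_left 4)
    rw [h3, mul_one, (hx p (hS hp)).pow_eq_one_iff_dvd] at h2
    have hpp := hPp p (hS hp)
    rcases (Nat.Prime.dvd_mul hpp).mp h2 with h4 | h4
    · have h5 : Nat.Coprime p (2 ^ 2) := (hP2 p (hS hp)).pow_right 2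
      exact hpp.one_lt.ne' (Nat.Coprime.eq_one_of_dvd h5 h4)
    · obtain ⟨q, hq, hpq⟩ := (Prime.dvd_finsetProd_iff hpp.prime _).mp h4
      exact (ne_of_mem_erase hq)
        ((Nat.prime_dvd_prime_iff_eq hpp (hPp q (hS (mem_of_mem_erase hq)))).mp hpq).symm
  let B : K → K := fun w => ∏ S ∈ P.powerset, D (w * xs S) ^ ((-1 : ℤ) ^ S.card)
  have hsplit : ∀ p ∈ P, ∀ w, B w = ∏ S ∈ (P.erase p).powerset,
      (D (w * xs S * x p) / D (w * xs S))⁻¹ ^ ((-1 : ℤ) ^ S.card) := by
    intro p hp w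
    simp only [B]
    conv_lhs => rw [← Finset.insert_erase hp]
    rw [Finset.prod_powerset_insert (notMem_erase p P), ← Finset.prod_mul_distrib]
    refine Finset.prod_congr rfl fun S hS => ?_
    have hpS : p ∉ S := fun h => notMem_erase p P (mem_powerset.mp hS h)
    rw [card_insert_of_notMem hpS, inv_div, div_zpow (D _) (D _), pow_succ, mul_neg_one, zpow_neg,
      div_eq_mul_inv]
    simp only [xs]
    rw [Finset.prod_insert hpS, mul_comm (x p), mul_assoc w]
  have hU : ∀ (V : ValuationSubring K), ∀ p ∈ P, V.valuation (p : K) < 1 → ∀ w, w ^ n = 1 →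
      V.valuation (B w - 1) < 1 := by
    intro V p hp hV w hw
    rw [hsplit p hp]
    refine prodT (fun y => V.valuation (y - 1) < 1) (by simp) (fun _ _ => u1_mul V)
      (fun _ => u1_inv V) _ _ _ fun S _ => u1_inv V ?_
    have := local_lemma V n p hnK (hPp p hp) (hPn p hp) hV f hf (w * xs S) (x p) (hwxs w S hw)
      (hx p hp).pow_eq_one
    simp only [D]
    rwa [div_div_div_cancel_right₀ two_ne_zero]
  have hBv : ∀ (V : ValuationSubring K) w, w ^ n = 1 → V.valuation (B w) = 1 := by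
    intro V w hw
    by_cases h : ∃ p ∈ P, V.valuation (p : K) < 1
    · obtain ⟨p, hp, hV⟩ := h
      exact val_eq_one_of V (hU V p hp hV w hw)
    · push Not at h
      have hV := val_natCast' V m hm0 fun p hp => not_lt.mpr (h p hp)
      refine prodT (fun y => V.valuation y = 1) (by simp) ?_ ?_ _ _ _
        fun S _ => hDu V hV _ (hwxs w S hw)
      · intro a b ha hb; simp [ha, hb]
      · intro a ha; simp [ha]
  obtain ⟨p, hp⟩ : P.Nonempty := Nat.nonempty_primeFactors.mpr hm1
  have hnorm : ∀ (φ : K →+* ℂ) w, w ^ n = 1 → ‖φ (D w)‖ ^ 2 = m := by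
    intro φ w hw
    have h1 : ‖φ w‖ = 1 := Complex.norm_eq_one_of_pow_eq_one (by rw [← map_pow, hw, map_one]) hn0
    have h2 : (starRingEnd ℂ) (φ (D w)) = φ (D w⁻¹) := by
      simp only [D, map_div₀, map_ofNat, map_ev, map_inv₀]
      rw [Complex.inv_eq_conj h1]
    have h3 := congrArg φ (hDD w hw)
    rw [map_mul, ← h2, Complex.mul_conj, map_natCast, Complex.normSq_eq_norm_sq] at h3
    exact_mod_cast h3
  have hroot : ∀ w, w ^ n = 1 → ∃ k, Odd k ∧ B w ^ k = 1 := by
    intro w hw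
    have hint : IsIntegral ℤ (B w) := isIntegral_of_forall fun V =>
      (V.valuation_le_one_iff _).mp (hBv V w hw).le
    have hn1 : ∀ φ : K →+* ℂ, ‖φ (B w)‖ = 1 := by
      intro φ
      rw [hsplit p hp]
      refine prodT (fun y => ‖φ y‖ = 1) (by simp) ?_ ?_ _ _ _ fun S _ => ?_
      · intro a b ha hb; simp [ha, hb]
      · intro a ha; simp [ha]
      · have h1 := hnorm φ _ (hwxs w S hw)
        have h2 := hnorm φ (w * xs S * x p) (by
          rw [mul_pow, hwxs w S hw, one_mul]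
          exact ((hx p hp).pow_eq_one_iff_dvd _).mpr (hPn p hp))
        have h3 : ‖φ (D (w * xs S * x p))‖ = ‖φ (D (w * xs S))‖ :=
          (pow_left_inj₀ (norm_nonneg _) (norm_nonneg _) two_ne_zero).mp (h2.trans h1.symm)
        have h4 : ‖φ (D (w * xs S))‖ ≠ 0 := by
          intro h0; rw [h0] at h1
          have : (m : ℝ) ≠ 0 := by exact_mod_cast hm0
          exact this (by rw [← h1]; norm_num)
        simp only [map_inv₀, map_div₀, norm_inv, norm_div, h3, div_self h4, inv_one]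
    obtain ⟨N, hN, hBN⟩ := NumberField.Embeddings.pow_eq_one_of_norm_eq_one K ℂ hint hn1
    obtain ⟨a, k, hk, rfl⟩ := Nat.exists_eq_two_pow_mul_odd hN.ne'
    obtain ⟨V, hV⟩ := exists_val K p (hPp p hp)
    refine ⟨k, hk, eq_one_of_u1 V (u1_pow V (hU V p hp hV w hw) k) (2 ^ a) ?_
      (val_natCast V p _ hV ((hP2 p hp).pow_right a))⟩
    rw [← pow_mul, mul_comm, hBN]
  obtain ⟨V, hV⟩ := exists_val K 2 Nat.prime_two
  have hV2 : V.valuation (2 : K) < 1 := by exact_mod_cast hV
  have hVm : V.valuation (m : K) = 1 := val_natCast V 2 m hV hm.coprime_two_left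
  have hB0 : ∀ w, w ^ n = 1 → B w ≠ 0 := fun w hw h0 => by
    have := hBv V w hw
    rw [h0] at this; simp at this
  have hBeq : ∀ e : K, e ^ 4 = 1 → B e = B 1 := by
    intro e he
    have h1 : B e / B 1 = ∏ S ∈ P.powerset, (D (e * xs S) / D (1 * xs S)) ^ ((-1 : ℤ) ^ S.card) := by
      simp only [B, div_zpow, Finset.prod_div_distrib]
    have hite : ∀ c : Prop, ∀ _ : Decidable c, V.valuation (if c then 2 * (m : K) else 0) < 1 := by
      intro c _
      split_ifs
      · rw [map_mul, hVm, mul_one]; exact hV2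
      · simp
    have h2 : V.valuation (B e / B 1 - 1) < 1 := by
      rw [h1]
      refine prodT (fun y => V.valuation (y - 1) < 1) (by simp) (fun _ _ => u1_mul V)
        (fun _ => u1_inv V) _ _ _ fun S _ => ?_
      have h3 := hwxs 1 S (one_pow _)
      have h4 := hwxs e S (h4n e he)
      rw [div_sub_one (hD0 _ h3), map_div₀, hDu V hVm _ h3, div_one, hD _ h3, hD _ h4,
        add_sub_add_comm]
      refine Valuation.map_add_lt _ ?_ (Valuation.map_sub_lt _ (hite _ _) (hite _ _))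
      obtain ⟨c, hc⟩ := sub_dvd_ev (R := V) ⟨_, root_mem V hn0 h4⟩ ⟨_, root_mem V hn0 h3⟩ g
      have h5 := congrArg V.subtype hc
      simp only [map_sub, map_mul, map_ev, ValuationSubring.subtype_apply] at h5
      rw [h5, ← sub_mul, map_mul, map_mul]
      have h6 := (V.valuation_le_one_iff _).mpr (root_mem V hn0 (hxs S))
      have h7 := (V.valuation_le_one_iff _).mpr c.2
      exact lt_of_le_of_lt ((mul_le_of_le_one_right' h7).trans (mul_le_of_le_one_right' h6))
        (fourth_u1 V hV2 he)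
    obtain ⟨k1, hk1, e1⟩ := hroot e (h4n e he)
    obtain ⟨k2, hk2, e2⟩ := hroot 1 (one_pow _)
    have h3 := eq_one_of_u1 V h2 (k1 * k2)
      (by rw [div_pow, pow_mul, e1, mul_comm, pow_mul, e2]; simp)
      (val_natCast V 2 _ hV (hk1.mul hk2).coprime_two_left)
    exact (div_eq_one_iff_eq (hB0 1 (one_pow _))).mp h3
  let R : K → K := ∏ S ∈ P.powerset.erase ∅, (fun e => D (e * xs S)) ^ ((-1 : ℤ) ^ S.card)
  have hR : LL V R ∧ LL V R⁻¹ := by
    refine prodT (fun y : K → K => LL V y ∧ LL V y⁻¹) ?_ ?_ ?_ _ _ _ fun S hS => ?_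
    · rw [inv_one]; exact ⟨LL_const V (one_mem _), LL_const V (one_mem _)⟩
    · intro a b ha hb
      rw [mul_inv]; exact ⟨LL_mul V ha.1 hb.1, LL_mul V ha.2 hb.2⟩
    · intro a ha
      rw [inv_inv]; exact ⟨ha.2, ha.1⟩
    · have hS1 := mem_powerset.mp (mem_of_mem_erase hS)
      have hS2 := ne_of_mem_erase hS
      constructor
      · refine LL_congr V (LL_ev V (root_mem V hn0 (hxs S)) 1 g) fun e he => ?_
        rw [hD _ (hwxs e S (h4n e he)), if_neg (hne1 e he S hS1 hS2), pow_one, add_zero]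
      · have hmi : (m : K)⁻¹ ∈ V := by
          rw [← V.valuation_le_one_iff, map_inv₀, hVm, inv_one]
        refine LL_congr V (LL_mul V (LL_const V hmi)
          (LL_ev V (root_mem V hn0 (hinvn _ (hxs S))) 3 g)) fun e he => ?_
        have h1 := hwxs e S (h4n e he)
        have h2 : e ^ 3 * (xs S)⁻¹ = (e * xs S)⁻¹ := by
          rw [mul_inv]; congr 1
          exact eq_inv_of_mul_eq_one_left (by rw [← pow_succ, he])
        have h3 := hD _ (hinvn _ h1)
        rw [if_neg (by rw [inv_eq_one]; exact hne1 e he S hS1 hS2), add_zero] at h3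
        simp only [Pi.inv_apply, Pi.mul_apply, h2, ← h3]
        rw [← hDD _ h1, mul_inv, mul_assoc, inv_mul_cancel₀ (hD0 _ (hinvn _ h1)), mul_one]
  have hBR : ∀ e, B e = D e * R e := by
    intro e
    simp only [B, R, Finset.prod_apply, Pi.pow_apply]
    rw [← Finset.mul_prod_erase _ _ (empty_mem_powerset P)]
    simp [xs]
  have hLD : LL V (fun e => if e = 1 then 2 * (m : K) else 0) := by
    have hB1 : B 1 ∈ V := (V.valuation_le_one_iff _).mp (hBv V 1 (one_pow _)).le
    refine LL_congr V (LL_sub V (LL_mul V (LL_const V hB1) hR.2) (LL_ev V (one_mem V) 1 g))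
      fun e he => ?_
    have h1 : R e ≠ 0 := fun h0 => hB0 e (h4n e he) (by rw [hBR, h0, mul_zero])
    simp only [Pi.sub_apply, Pi.mul_apply, Pi.inv_apply, pow_one, mul_one]
    rw [← hBeq e he, hBR, mul_assoc, mul_inv_cancel₀ h1, mul_one, hD e (h4n e he)]
    ring
  have hi : IsPrimitiveRoot (z ^ m) 4 := hz.pow (Nat.pos_of_ne_zero hn0) (by rw [hn, mul_comm])
  obtain ⟨a, ha, h1⟩ := LL_sum V hLD (z ^ m) hi.pow_eq_one
  have e1 : z ^ m ≠ 1 := hi.ne_one (by norm_num)
  have e2 : (z ^ m) ^ 2 ≠ 1 := hi.pow_ne_one_of_pos_of_lt (by norm_num) (by norm_num)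
  have e3 : (z ^ m) ^ 3 ≠ 1 := hi.pow_ne_one_of_pos_of_lt (by norm_num) (by norm_num)
  simp only [if_true, e1, e2, e3, if_false, add_zero] at h1
  have h2 : (m : K) = 2 * a := by linear_combination h1 / 2
  rw [h2, map_mul] at hVm
  exact absurd hVm (lt_of_le_of_lt (mul_le_of_le_one_right' ((V.valuation_le_one_iff _).mpr ha))
    hV2).ne

theorem hadamard_int (n : ℕ) [NeZero n] (h : ZMod n → ℤ) (hs : ∀ j, h j = 1 ∨ h j = -1)
    (ha : ∀ t : ZMod n, ∑ k, h k * h (k + t) = if t = 0 then (n : ℤ) else 0) :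
    n = 1 ∨ n = 4 := by
  have hn := NeZero.ne n
  obtain ⟨g, hg⟩ := exists_poly n h hs ha
  rcases two_part n hn g hg with hodd | ⟨m, hm, rfl⟩
  · left
    by_contra h1
    have : Fact (1 < n) := ⟨by omega⟩
    have h2 := ha 1
    rw [if_neg one_ne_zero] at h2
    have h3 : ∀ k, ((h k * h (k + 1) : ℤ) : ZMod 2) = 1 := by
      intro k
      rcases hs k with a | a <;> rcases hs (k + 1) with b | b <;> rw [a, b] <;> decide
    have h4 := congrArg (Int.cast : ℤ → ZMod 2) h2
    rw [Int.cast_sum] at h4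
    simp only [h3, sum_const, card_univ, ZMod.card, nsmul_eq_mul, mul_one, Int.cast_zero] at h4
    rw [ZMod.natCast_eq_zero_iff_even] at h4
    exact (Nat.not_even_iff_odd.mpr hodd) h4
  · right
    by_contra h1
    have hm1 : 1 < m := by
      obtain ⟨k, rfl⟩ := hm
      omega
    have : IsCyclotomicExtension {4 * m} ℚ (CyclotomicField (4 * m) ℚ) :=
      CyclotomicField.isCyclotomicExtension (4 * m) ℚ
    have : NumberField (CyclotomicField (4 * m) ℚ) :=
      IsCyclotomicExtension.numberField {4 * m} ℚ _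
    exact main_field (CyclotomicField (4 * m) ℚ) m hm hm1 _
      (IsCyclotomicExtension.zeta_spec (4 * m) ℚ (CyclotomicField (4 * m) ℚ)) g hg

end Vale.Agent.P033
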