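import Vale.Agent.P033.Local

namespace Vale.Agent.P033

open Polynomial Finset IsLocalRing

lemma prodT {G : Type*} [DivisionCommMonoid G] (T : G → Prop) (h1 : T 1)
    (hmul : ∀ x y, T x → T y → T (x * y)) (hinv : ∀ x, T x → T x⁻¹) {ι : Type*} (s : Finset ι)
    (x : ι → G) (e : ι → ℕ) (h : ∀ i ∈ s, T (x i)) : T (∏ i ∈ s, x i ^ ((-1 : ℤ) ^ e i)) := by
  refine Finset.prod_induction _ T hmul h1 fun i hi => ?_
  rcases neg_one_pow_eq_or ℤ (e i) with h2 | h2
  · rw [h2, zpow_one]; exact h i hi
  · rw [h2, zpow_neg_one]; exact hinv _ (h i hi)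

section
variable {K : Type} [Field K] (V : ValuationSubring K)

lemma val_eq_one_of {x : K} (hx : V.valuation (x - 1) < 1) : V.valuation x = 1 := by
  have := V.valuation.map_one_add_of_lt hx
  rwa [add_sub_cancel] at this

lemma u1_mul {x y : K} (hx : V.valuation (x - 1) < 1) (hy : V.valuation (y - 1) < 1) :
    V.valuation (x * y - 1) < 1 := by
  have : x * y - 1 = (x - 1) * y + (y - 1) := by ring
  rw [this]
  apply Valuation.map_add_lt _ _ hy
  rw [map_mul, val_eq_one_of V hy, mul_one]; exact hx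

lemma u1_inv {x : K} (hx : V.valuation (x - 1) < 1) : V.valuation (x⁻¹ - 1) < 1 := by
  have h1 := val_eq_one_of V hx
  have h0 : x ≠ 0 := by rintro rfl; simp at h1
  have : x⁻¹ - 1 = -(x - 1) / x := by field_simp; ring
  rw [this, map_div₀, h1, div_one, Valuation.map_neg]; exact hx

lemma u1_pow {x : K} (hx : V.valuation (x - 1) < 1) (k : ℕ) : V.valuation (x ^ k - 1) < 1 := by
  induction k with
  | zero => simp
  | succ k ih => rw [pow_succ]; exact u1_mul V ih hx

lemma eq_one_of_u1 {y : K} (hy : V.valuation (y - 1) < 1) (k : ℕ) (hk : y ^ k = 1)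
    (hv : V.valuation (k : K) = 1) : y = 1 := by
  classical
  by_contra h1
  have h2 := geom_root k y hk
  rw [if_neg h1] at h2
  have h3 : V.valuation (∑ i ∈ range k, (y ^ i - 1)) < 1 :=
    Valuation.map_sum_lt _ one_ne_zero fun i _ => u1_pow V hy i
  rw [Finset.sum_sub_distrib, h2] at h3
  simp [hv] at h3

lemma val_natCast (p k : ℕ) (hp : V.valuation (p : K) < 1) (hk : Nat.Coprime p k) :
    V.valuation (k : K) = 1 := by
  have := isUnit_natCast (A := V) p k (by rw [V.valuation_lt_one_iff]; simpa using hp) hk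
  simpa using (V.valuation_eq_one_iff _).mp this

lemma val_natCast' (m : ℕ) (hm : m ≠ 0)
    (h : ∀ p ∈ m.primeFactors, ¬ V.valuation (p : K) < 1) : V.valuation (m : K) = 1 := by
  have : ∀ l : List ℕ, (∀ p ∈ l, ¬ V.valuation (p : K) < 1) → V.valuation (l.prod : K) = 1 := by
    intro l hl
    induction l with
    | nil => simp
    | cons a l ih =>
      rw [List.prod_cons, Nat.cast_mul, map_mul, ih fun p hp => hl p (List.mem_cons_of_mem _ hp),
        mul_one]
      refine le_antisymm ?_ (not_lt.mp (hl a List.mem_cons_self))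
      exact (V.valuation_le_one_iff _).mpr (natCast_mem V a)
  have h2 := this m.primeFactorsList fun p hp => h p (Nat.mem_primeFactors_iff_mem_primeFactorsList.mpr hp)
  rwa [Nat.prod_primeFactorsList hm] at h2

lemma val_eq_one_of_mul {x y : K} (hx : x ∈ V) (hy : y ∈ V) (h : V.valuation (x * y) = 1) :
    V.valuation x = 1 := by
  rw [← V.valuation_le_one_iff] at hx hy
  refine le_antisymm hx ?_
  rw [← h, map_mul]
  exact mul_le_of_le_one_right' hy

end

lemma exists_val (K : Type) [Field K] [CharZero K] (p : ℕ) (hp : p.Prime) :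
    ∃ V : ValuationSubring K, V.valuation (p : K) < 1 := by
  let A : Subring K := (Int.castRingHom K).range
  have hI : Ideal.span {(p : A)} ≠ ⊤ := by
    rw [Ne, Ideal.span_singleton_eq_top]
    intro hu
    obtain ⟨⟨_, z, rfl⟩, hz⟩ := hu.exists_right_inv
    have h1 := congrArg Subtype.val hz
    simp only [Subring.coe_mul, SubringClass.coe_natCast, eq_intCast, OneMemClass.coe_one] at h1
    have h2 : (p : ℤ) * z = 1 := by exact_mod_cast h1
    have h3 := Int.eq_one_of_mul_eq_one_right (by positivity) h2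
    have := hp.one_lt
    omega
  obtain ⟨V, -, hV⟩ := Ideal.image_subset_nonunits_valuationSubring _ hI
  refine ⟨V, V.mem_nonunits_iff.mp (hV ⟨p, Ideal.subset_span rfl, by simp⟩)⟩

lemma isIntegral_of_forall {K : Type} [Field K] {x : K} (h : ∀ V : ValuationSubring K, x ∈ V) :
    IsIntegral ℤ x := by
  have h1 : x ∈ (integralClosure (Subring.closure (∅ : Set K)) K).toSubring := by
    rw [← iInf_valuationSubring_superset]
    exact Subring.mem_iInf.mpr fun V => h V.1
  have h2 : IsIntegral (Subring.closure (∅ : Set K)) x := h1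
  have : Algebra.IsIntegral ℤ (Subring.closure (∅ : Set K)) := by
    refine ⟨fun y => ?_⟩
    obtain ⟨y, hy⟩ := y
    have hy' := hy
    rw [Subring.closure_empty, Subring.mem_bot] at hy'
    obtain ⟨z, rfl⟩ := hy'
    have : (⟨(z : K), hy⟩ : Subring.closure (∅ : Set K)) = algebraMap ℤ _ z := by
      ext; simp
    rw [this]; exact isIntegral_algebraMap
  exact isIntegral_trans x h2

/-- functions given on fourth roots of unity by a polynomial over the valuation ring -/
def LL {K : Type} [Field K] (V : ValuationSubring K) (y : K → K) : Prop :=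
  ∃ G : V[X], ∀ e : K, e ^ 4 = 1 → y e = G.eval₂ V.subtype e

section
variable {K : Type} [Field K] (V : ValuationSubring K)

lemma LL_congr {y y' : K → K} (h : LL V y) (h' : ∀ e, e ^ 4 = 1 → y' e = y e) : LL V y' := by
  obtain ⟨G, hG⟩ := h
  exact ⟨G, fun e he => (h' e he).trans (hG e he)⟩

lemma LL_mul {y y' : K → K} (h : LL V y) (h' : LL V y') : LL V (y * y') := by
  obtain ⟨G, hG⟩ := h
  obtain ⟨G', hG'⟩ := h'
  exact ⟨G * G', fun e he => by rw [Pi.mul_apply, hG e he, hG' e he, eval₂_mul]⟩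

lemma LL_sub {y y' : K → K} (h : LL V y) (h' : LL V y') : LL V (y - y') := by
  obtain ⟨G, hG⟩ := h
  obtain ⟨G', hG'⟩ := h'
  exact ⟨G - G', fun e he => by rw [Pi.sub_apply, hG e he, hG' e he, eval₂_sub]⟩

lemma LL_const {a : K} (ha : a ∈ V) : LL V (fun _ => a) :=
  ⟨C ⟨a, ha⟩, fun e _ => by simp⟩

lemma LL_ev {a : K} (ha : a ∈ V) (k : ℕ) (g : ℤ[X]) : LL V (fun e => ev (e ^ k * a) g) := by
  refine ⟨ev (X ^ k * C ⟨a, ha⟩) g, fun e _ => ?_⟩
  rw [← coe_eval₂RingHom, map_ev]
  show ev (e ^ k * a) g = _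
  rw [mul_comm]
  simp

lemma LL_sum {y : K → K} (h : LL V y) (i : K) (hi : i ^ 4 = 1) :
    ∃ a ∈ V, y 1 + y i + y (i ^ 2) + y (i ^ 3) = 4 * a := by
  classical
  obtain ⟨G, hG⟩ := h
  rw [hG 1 (one_pow _), hG i hi, hG (i ^ 2) (by rw [pow_right_comm, hi, one_pow]),
    hG (i ^ 3) (by rw [pow_right_comm, hi, one_pow])]
  clear hG
  induction G using Polynomial.induction_on' with
  | add p q hp hq =>
    obtain ⟨a, ha, h1⟩ := hp
    obtain ⟨b, hb, h2⟩ := hq
    refine ⟨a + b, add_mem ha hb, ?_⟩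
    simp only [eval₂_add]
    linear_combination h1 + h2
  | monomial k a =>
    have h1 := geom_root 4 (i ^ k) (by rw [pow_right_comm, hi, one_pow])
    simp only [Finset.sum_range_succ, range_zero, sum_empty, pow_zero, zero_add, pow_one] at h1
    simp only [eval₂_monomial, one_pow, pow_right_comm i 2 k, pow_right_comm i 3 k,
      ValuationSubring.subtype_apply]
    split_ifs at h1 with h2
    · exact ⟨a, a.2, by push_cast at h1; linear_combination (a : K) * h1⟩
    · exact ⟨0, zero_mem _, by linear_combination (a : K) * h1⟩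

lemma fourth_u1 (h2 : V.valuation (2 : K) < 1) {e : K} (he : e ^ 4 = 1) :
    V.valuation (e - 1) < 1 := by
  have heV := root_mem V (by norm_num) he
  have h1 : (e - 1) ^ 4 = 2 * (1 - 2 * e ^ 3 + 3 * e ^ 2 - 2 * e) := by linear_combination he
  have h3 : (1 - 2 * e ^ 3 + 3 * e ^ 2 - 2 * e) ∈ V := by
    have h2V : (2 : K) ∈ V := by exact_mod_cast natCast_mem V 2
    have h3V : (3 : K) ∈ V := by exact_mod_cast natCast_mem V 3
    apply_rules [sub_mem, add_mem, mul_mem, pow_mem, one_mem]
  rw [← V.valuation_le_one_iff] at h3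
  have h4 : V.valuation (e - 1) ^ 4 < 1 := by
    rw [← map_pow, h1, map_mul]
    exact lt_of_le_of_lt (mul_le_of_le_one_right' h3) h2
  exact (pow_lt_one_iff (by norm_num)).mp h4

end

end Vale.Agent.P033
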